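import Crest.Agent.X212.Kh11.Lev

/-! Row 212, KH-HBS (helper46): a complete system of disjoint discs. -/

set_option autoImplicit false
set_option linter.unusedSectionVars false

open Finset Classical

noncomputable section

namespace Crest.Agent.X212.Hbs46

open Hp13 Hk
open Alg36 (Om)

variable {P : Type} [PartialOrder P] [Fintype P] {Y X Λ A B D : Set P} {k : ℕ}
  {w : Fin k → P → P → ℤ} {u : P → P → ℤ}

/-- the state of the cutting process -/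
structure Sta (Y X Λ : Set P) {k : ℕ} (w : Fin k → P → P → ℤ) : Prop where
  amb : Amb Y
  ambX : Amb X
  sub : X ⊆ Y
  add : ADD X
  low : IsLowerSet Λ
  lam : Λ ⊆ Om X
  ctr : ∀ D, IsCmp Λ D → Ctr D
  om : Om X ∩ Y ⊆ Λ
  td : ∀ i, TD Y (w i)
  fl : ∀ i, Flat (cl X) (w i)
  dj : ∀ i j, i ≠ j → ∀ x, ∀ y ∈ cl Y, x ≤ y → w i x y = 0 ∨ w j x y = 0
  sp : ∀ ζ, CocOn (cl Y) ζ → ExOn (cl X) ζ → ∃ n : Fin k → ℤ, ExOn (cl Y) (ζ - ∑ i, n i • w i)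

theorem ex_om (h : Amb X) (hz : CocOn (cl X) u) (e : ExOn (Om X) u) : ExOn (cl X) u := by
  obtain ⟨g, e⟩ := e
  obtain ⟨g', -, e'⟩ := h.bnd (u - cb g) ((coc_iff h.up).2 (cocOn_sub hz (cocOn_cb g)))
    ((cl0_iff h.up).2 fun x a y b l => sub_eq_zero.2 (e x a y b l))
  rw [zero_add] at e'
  simpa using exOn_add (exOn_congr (exOn_cb g') ((eqD_iff h.up).1 e')) (exOn_cb g)

theorem cmp_union (hA : IsLowerSet A) (hB : IsLowerSet B) (d : Disjoint A B)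
    (h : IsCmp (A ∪ B) D) : IsCmp A D ∨ IsCmp B D := by
  have key : ∀ {A B : Set P}, IsLowerSet A → IsLowerSet B → Disjoint A B → ∀ x ∈ A,
      cmp (A ∪ B) x = cmp A x := fun {A B} hA hB d x hx => Set.ext fun y =>
    ⟨fun k => have := Rch.in_clopen (C := A) (fun a ha b hb c => hb.elim id fun j =>
        c.elim (fun l => (Set.disjoint_left.1 d ha (hB l j)).elim) fun l => hA l ha) hx k.2
      ⟨this.mem hx, this⟩, fun k => ⟨Or.inl k.1, k.2.mono Set.subset_union_left⟩⟩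
  obtain ⟨x, hx | hx, rfl⟩ := h
  · exact Or.inl ⟨x, hx, key hA hB d x hx⟩
  · exact Or.inr ⟨x, hx, Set.union_comm A B ▸ key hB hA d.symm x hx⟩

theorem cmp_ctr (h : Ctr A) (k : IsCmp A D) : Ctr D := by
  obtain ⟨x, hx, rfl⟩ := k
  rwa [show cmp A x = A from Set.ext fun q => ⟨fun k => k.1, fun k => ⟨k, h.conn x hx q k⟩⟩]

namespace Sta

theorem pre (s : Sta Y X Λ w) {t : St} {f : t.P → P} (h : Tw P t f) :
    Sta (f ⁻¹' Y) (f ⁻¹' X) (f ⁻¹' Λ) fun i => pb f (w i) := by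
  refine ⟨s.amb.pre h, s.ambX.pre h, fun _ j => s.sub j, s.add.pre s.ambX.up h, h.lower s.low,
    ?_, fun D k => ?_, ?_, fun i => (s.td i).pre s.amb.up h, fun i => ?_, ?_, ?_⟩
  · rw [h.om]; exact fun _ j => s.lam j
  · obtain ⟨C, h1, rfl⟩ := h.isCmp_ex k
    exact h.ctr.2 (s.ctr C h1)
  · rw [h.om]; exact fun _ j => s.om j
  · rw [h.cl]; exact (s.fl i).pb h.mono
  · rw [h.cl]; exact fun i j e _ _ hy l => s.dj i j e _ _ hy (h.mono l)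
  · rw [h.cl, h.cl]
    intro ζ h1 h2
    have m : f ⁻¹' cl X ⊆ f ⁻¹' cl Y := fun _ j => cl_mono s.sub j
    obtain ⟨z, z1, z2⟩ := h.onto h1
    obtain ⟨n, hn⟩ := s.sp z z1 ((h.exOn (cocOn_mono z1 (cl_mono s.sub))).1
      ((exOn_iff_of_sub (exOn_mono z2 m)).1 h2))
    refine ⟨n, ?_⟩
    have := exOn_add z2 (exOn_pb hn h.mono)
    rwa [pb_sub, pb_sum, sub_add_sub_cancel] at this

theorem out (s : Sta Y X Λ w) : ∀ y ∈ cl X, ∀ v ∈ cl Y, y ≤ v → v ∉ cl X → y ∈ Λ := by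
  rintro y ⟨a, ha, l⟩ v ⟨b, hb, l'⟩ h1 h2
  by_contra hy
  have := ((s.amb.toRg.ctr (x := y) ⟨b, hb, h1.trans l'⟩).conn a ⟨s.sub ha, l⟩ b
    ⟨hb, h1.trans l'⟩).ind (p := (· ∈ X)) ha fun c hc d hd j =>
      ⟨s.ambX.up j, fun i => by_contra fun n => hy (s.low hc.2 (s.om ⟨⟨n, d, i, j⟩, hc.1⟩))⟩
  exact h2 ⟨b, this, l'⟩

theorem cut (s : Sta Y X Λ w) (hE : ExtStmt) (h1 : Tc1Stmt) (h2 : Tc2Stmt) (hD : DdStmt)
    (hu : TD X u) (fu : Flat Λ u) :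
    Sta (t3 ⁻¹' Y) (tcut X u) (t3 ⁻¹' Λ ∪ (scar X u 0 ∪ scar X u 1))
      (Fin.cons (ext (t3 ⁻¹' X) (w3 u)) fun i => pb t3 (w i) : Fin (k + 1) → _) := by
  have s' : Sta (t3 ⁻¹' Y) (t3 ⁻¹' X) (t3 ⁻¹' Λ) fun i => pb t3 (w i) := s.pre (Tw.three P)
  have ec : cl (t3 ⁻¹' X) = t3 ⁻¹' cl X := (Tw.three P).cl X
  have eo : Om (t3 ⁻¹' X) = t3 ⁻¹' Om X := (Tw.three P).om X
  obtain ⟨-, -, a3, -, -, -, a7, a8, a9, a10⟩ := h1 P X u s.ambX.toRg hu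
  obtain ⟨b1, -, b3, b4, -⟩ := h2 P X u s.ambX.toRg hu
  obtain ⟨c1, -, c3⟩ := a9 Λ s.low (fu.mono Set.inter_subset_left)
  obtain ⟨l0, k0, o0, -⟩ := a10 0 (Or.inl rfl)
  obtain ⟨l1, k1, o1, -⟩ := a10 1 (Or.inr rfl)
  have m : tcut X u ⊆ t3 ⁻¹' X := fun _ j => j.1
  have f3 : Flat (t3 ⁻¹' Λ ∩ cl (t3 ⁻¹' X)) (w3 u) := by
    rw [ec]
    exact b1.flat Λ s.low (Set.disjoint_empty _) (fu.mono Set.inter_subset_left)
  have tv : TD (t3 ⁻¹' Y) (ext (t3 ⁻¹' X) (w3 u)) :=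
    ((hE _ _ _ _ s'.amb.up s'.ambX.up s'.sub s'.low s'.om s'.out).2 _ f3).2.2.1 b1.td
  have ee : EqE (cl (t3 ⁻¹' X)) (ext (t3 ⁻¹' X) (w3 u)) (w3 u) := fun _ _ _ j _ => if_pos j
  have dj : ∀ i x, ∀ y ∈ cl (t3 ⁻¹' Y), x ≤ y →
      ext (t3 ⁻¹' X) (w3 u) x y = 0 ∨ pb t3 (w i) x y = 0 := fun i x y _ l =>
    (Classical.em (y ∈ cl (t3 ⁻¹' X))).symm.imp (fun j => if_neg j) fun j =>
      s'.fl i x (cl_low l j) y j l
  refine ⟨s'.amb, a3 s.ambX, m.trans s'.sub, ((hD P X X s.ambX.sub s.ambX).2 u hu).2 s.add,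
    s'.low.union (l0.union l1), Set.union_subset (fun _ j => c3 ⟨j, s.lam j⟩)
      (Set.union_subset o0 o1), fun D j => ?_, fun x j => (a8 j.1).imp_left fun i => s.om ⟨i, j.2⟩,
    fun i => Fin.cases tv s'.td i, fun i => Fin.cases (b3.congr (ee.mono (cl_mono m)))
      (fun i => (s'.fl i).mono (cl_mono m)) i, fun i j => ?_, fun ζ z1 z2 => ?_⟩
  · rcases cmp_union s'.low (l0.union l1) (c1.mono_right (a7 ▸ fun _ i => i.1)) j with j | j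
    · exact s'.ctr D j
    · exact (cmp_union l0 l1 (Set.disjoint_left.2 fun _ a b => zero_ne_one (a.2.symm.trans b.2))
        j).elim (cmp_ctr k0) (cmp_ctr k1)
  · refine Fin.cases (Fin.cases (fun e => (e rfl).elim) (fun j _ => dj j) j) (fun i => ?_) i
    exact Fin.cases (fun _ x y a b => (dj i x y a b).symm)
      (fun j e => s'.dj i j fun n => e (congrArg _ n)) j
  · obtain ⟨a, ha⟩ := b4 ζ (ec ▸ cocOn_mono z1 (cl_mono s'.sub)) z2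
    rw [← ec] at ha
    obtain ⟨n, hn⟩ := s'.sp _ (cocOn_sub z1 (cocOn_zsmul tv.coc a)) (exOn_congr ha
      fun x hx y hy l => by simp only [Pi.sub_apply, Pi.smul_apply, ee x hx y hy l])
    refine ⟨Fin.cons a n, ?_⟩
    rwa [Fin.sum_univ_succ, ← sub_sub]

theorem step (s : Sta Y X Λ w) (hE : ExtStmt) (hS : SlStmt) (h1 : Tc1Stmt) (h2 : Tc2Stmt)
    (hD : DdStmt) {ζ : P → P → ℤ} (z1 : CocOn (cl X) ζ) (z2 : ¬ ExOn (cl X) ζ) :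
    ∃ (t : St) (f : t.P → P) (X' Λ' : Set t.P) (k' : ℕ) (w' : Fin k' → t.P → t.P → ℤ),
      Tw P t f ∧ Sta (f ⁻¹' Y) X' Λ' w' ∧ X' ⊆ f ⁻¹' X ∧
      ∃ i, ¬ ExOn (f ⁻¹' cl X) (w' i) := by
  obtain ⟨t, f, h, m, v, n, v1, v2⟩ := s.add ζ z1
  obtain ⟨i, hi⟩ : ∃ i, ¬ ExOn (f ⁻¹' cl X) (v i) := by
    by_contra c
    push Not at c
    exact z2 ((h.exOn z1).1 ((exOn_iff_of_sub v2).2 (exOn_sum _ fun i _ => exOn_zsmul (c i) _)))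
  rw [← h.cl] at hi
  have s1 := s.pre h
  rcases hS _ _ _ _ _ _ s1.ambX.sub (bd_om s1.ambX.up) s1.low s1.lam s1.ctr (v1 i) on_om with
    c | ⟨t', g, u, c1, c2⟩
  · exact (hi (ex_om s1.ambX (v1 i).coc c.exOn)).elim
  have s2 := s1.pre c1.tw
  have hu : ¬ ExOn (cl (g ⁻¹' (f ⁻¹' X))) u := fun c => by
    rw [c1.tw.cl] at c
    refine hi ((c1.tw.exOn (v1 i).coc).1 (c1.drv.elim (fun e => (exOn_iff_of_sub e).1 c) fun e => ?_))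
    simpa using exOn_sub e c
  have h3 := (h.trans c1.tw).trans (Tw.three t'.P)
  refine ⟨(lv0 t'.P).sd.sd.sd, (f ∘ g) ∘ t3, _, _, _, _, h3,
    s2.cut hE h1 h2 hD c1.td c2, fun _ j => And.left j, 0, fun c => hu ?_⟩
  have ec : cl (t3 ⁻¹' (g ⁻¹' (f ⁻¹' X))) = ((f ∘ g) ∘ t3) ⁻¹' cl X := h3.cl X
  have ec' : cl (t3 ⁻¹' (g ⁻¹' (f ⁻¹' X))) = t3 ⁻¹' cl (g ⁻¹' (f ⁻¹' X)) := (Tw.three _).cl _
  have c' : ExOn (cl (t3 ⁻¹' (g ⁻¹' (f ⁻¹' X)))) (w3 u) :=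
    exOn_congr (ec ▸ c) fun _ _ _ j _ => (if_pos j).symm
  rw [ec'] at c'
  exact ((Tw.three _).exOn c1.td.coc).1
    ((exOn_iff_of_sub (h2 _ _ u s2.ambX.toRg c1.td).2.1).1 c')

end Sta

/-- the classes that die on `X` -/
def Kr {Q : Type} [PartialOrder Q] (Y : Set P) (f : Q → P) (X : Set Q) :
    Submodule ℤ (P → P → ℤ) where
  carrier := {ζ | CocOn (cl Y) ζ ∧ ExOn (cl X) (pb f ζ)}
  add_mem' a b := ⟨cocOn_add a.1 b.1, exOn_add a.2 b.2⟩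
  zero_mem' := ⟨cocOn_zero, exOn_zero⟩
  smul_mem' n _ a := ⟨cocOn_zsmul a.1 n, exOn_zsmul a.2 n⟩

/-- **HBS** -/
theorem hbsStmt (hE : ExtStmt) (hS : SlStmt) (h1 : Tc1Stmt) (h2 : Tc2Stmt) (hD : DdStmt) :
    HbsStmt := by
  intro P _ _ Y hY hA
  have key : ∀ K : Submodule ℤ (P → P → ℤ), ∀ (t : St) (f : t.P → P) (X Λ : Set t.P) (k : ℕ)
      (w : Fin k → t.P → t.P → ℤ), Tw P t f → Sta (f ⁻¹' Y) X Λ w → Kr Y f X = K → HBY Y := by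
    intro K
    induction K using WellFoundedGT.induction with
    | ind K ih =>
    rintro t f X Λ k w h s rfl
    by_cases c : ∀ ζ : t.P → t.P → ℤ, CocOn (cl X) ζ → ExOn (cl X) ζ
    · refine ⟨t, f, h, k, w, s.td, ?_, ?_⟩ <;> rw [← h.cl]
      exacts [s.dj, fun ζ z => s.sp ζ z (c ζ (cocOn_mono z (cl_mono s.sub)))]
    push Not at c
    obtain ⟨ζ, z1, z2⟩ := c
    obtain ⟨t', g, X', Λ', k', w', h', s', m, i, hi⟩ := s.step hE hS h1 h2 hD z1 z2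
    refine ih _ ?_ t' (f ∘ g) X' Λ' k' w' (h.trans h') s' rfl
    have m' : cl X' ⊆ g ⁻¹' cl X := h'.cl X ▸ cl_mono m
    have e : cl (g ⁻¹' (f ⁻¹' Y)) = (f ∘ g) ⁻¹' cl Y := (h.trans h').cl Y
    have m2 : g ⁻¹' cl X ⊆ (f ∘ g) ⁻¹' cl Y := by
      rw [← e, h'.cl]; exact fun _ j => cl_mono s.sub j
    obtain ⟨z, y1, y2⟩ := (h.trans h').onto (e ▸ (s'.td i).coc)
    have k1 : z ∈ Kr Y (f ∘ g) X' :=
      ⟨y1, (exOn_iff_of_sub (exOn_mono y2 (m'.trans m2))).1 (s'.fl i).exOn⟩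
    have k2 : z ∉ Kr Y f X := fun a =>
      hi ((exOn_iff_of_sub (exOn_mono y2 m2)).2 (exOn_pb (f := g) a.2 h'.mono))
    exact SetLike.lt_iff_le_and_exists.2
      ⟨fun _ a => ⟨a.1, exOn_mono (exOn_pb (f := g) a.2 h'.mono) m'⟩, z, k1, k2⟩
  refine key _ (lv0 P) id Y ∅ 0 Fin.elim0 (Tw.refl P) ⟨hY, hY, subset_rfl, hA, isLowerSet_empty,
    Set.empty_subset _, fun D ⟨_, j, _⟩ => j.elim, fun _ j => j.1.1 j.2, fun i => i.elim0,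
    fun i => i.elim0, fun i => i.elim0, fun ζ _ z => ⟨Fin.elim0, ?_⟩⟩ rfl
  rwa [Fin.sum_univ_zero, sub_zero]

end Crest.Agent.X212.Hbs46
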